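import Vale.Agent.P186.MathlibUsed
import Vale.Agent.P186.Defs

set_option linter.all false

section

/-!
Abstract word-geometry of a finitely generated group, and its extraction from the Cayley graph.
-/

namespace Vale.Agent.P186

/-- A left-invariant, locally finite, discretely geodesic metric with `δ`-thin triangles. -/
structure HypMetric (G : Type*) [Group G] where
  d : G → G → ℕ
  δ : ℕ
  self : ∀ x, d x x = 0
  eq_of_zero : ∀ x y, d x y = 0 → x = y
  symm : ∀ x y, d x y = d y x
  tri : ∀ x y z, d x z ≤ d x y + d y z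
  inv : ∀ g x y, d (g * x) (g * y) = d x y
  geo : ∀ x y t, t ≤ d x y → ∃ v, d x v = t ∧ d v y = d x y - t
  fin : ∀ n, {g : G | d 1 g ≤ n}.Finite
  thin : ∀ x y z v, d x v + d v y = d x y →
    ∃ w, (d y w + d w z = d y z ∨ d z w + d w x = d z x) ∧ d v w ≤ δ

section Graph

variable {V : Type*} {Γ : SimpleGraph V}

/-- A geodesic walk through a point of the interval. -/
theorem exists_geodesic_through (hc : Γ.Connected) {x y v : V}
    (h : Γ.dist x v + Γ.dist v y = Γ.dist x y) :
    ∃ p : Γ.Walk x y, p.length = Γ.dist x y ∧ v ∈ p.support := by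
  obtain ⟨p, hp⟩ := hc.exists_walk_length_eq_dist x v
  obtain ⟨q, hq⟩ := hc.exists_walk_length_eq_dist v y
  refine ⟨p.append q, by rw [SimpleGraph.Walk.length_append, hp, hq, h], ?_⟩
  rw [SimpleGraph.Walk.mem_support_append_iff]
  exact Or.inl p.end_mem_support

theorem dist_add_of_mem_geodesic (hc : Γ.Connected) {x y v : V} (p : Γ.Walk x y)
    (hp : p.length = Γ.dist x y) (hv : v ∈ p.support) :
    Γ.dist x v + Γ.dist v y = Γ.dist x y := by
  classical
  have h1 : Γ.dist x v ≤ (p.takeUntil v hv).length := SimpleGraph.dist_le _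
  have h2 : Γ.dist v y ≤ (p.dropUntil v hv).length := SimpleGraph.dist_le _
  have h3 : (p.takeUntil v hv).length + (p.dropUntil v hv).length = p.length := by
    rw [← SimpleGraph.Walk.length_append, SimpleGraph.Walk.take_spec]
  have h4 := hc.dist_triangle (u := x) (v := v) (w := y)
  omega

theorem exists_dist_eq (hc : Γ.Connected) (x y : V) (t : ℕ) (ht : t ≤ Γ.dist x y) :
    ∃ v, Γ.dist x v = t ∧ Γ.dist v y = Γ.dist x y - t := by
  obtain ⟨p, hp⟩ := hc.exists_walk_length_eq_dist x y
  have h1 : Γ.dist x (p.getVert t) ≤ (p.take t).length := SimpleGraph.dist_le _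
  have h2 : Γ.dist (p.getVert t) y ≤ (p.drop t).length := SimpleGraph.dist_le _
  have h4 := hc.dist_triangle (u := x) (v := p.getVert t) (w := y)
  rw [SimpleGraph.Walk.take_length] at h1
  rw [SimpleGraph.Walk.drop_length] at h2
  refine ⟨p.getVert t, ?_, ?_⟩ <;> omega

theorem thin_interval (hc : Γ.Connected) {δ : ℕ} (hδ : ThinTriangles Γ δ) (x y z v : V)
    (h : Γ.dist x v + Γ.dist v y = Γ.dist x y) :
    ∃ w, (Γ.dist y w + Γ.dist w z = Γ.dist y z ∨ Γ.dist z w + Γ.dist w x = Γ.dist z x) ∧
      Γ.dist v w ≤ δ := by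
  obtain ⟨p, hp, hv⟩ := exists_geodesic_through hc h
  obtain ⟨q, hq⟩ := hc.exists_walk_length_eq_dist y z
  obtain ⟨r, hr⟩ := hc.exists_walk_length_eq_dist z x
  obtain ⟨w, hw, hd⟩ := hδ x y z p q r hp hq hr v hv
  exact ⟨w, hw.imp (dist_add_of_mem_geodesic hc q hq) (dist_add_of_mem_geodesic hc r hr), hd⟩

end Graph

section Cayley

variable {G : Type*} [Group G] (S : Set G)

theorem reachable_mul_left {x y : G} (g : G) (h : (SimpleGraph.mulCayley S).Reachable x y) :
    (SimpleGraph.mulCayley S).Reachable (g * x) (g * y) := by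
  obtain ⟨p⟩ := h
  induction p with
  | nil => exact SimpleGraph.Reachable.refl _
  | cons hadj p ih =>
    exact (SimpleGraph.Adj.reachable (SimpleGraph.mulCayley_adj_mul_iff_right.mpr hadj)).trans ih

theorem mulCayley_connected (hS : Subgroup.closure S = ⊤) :
    (SimpleGraph.mulCayley S).Connected := by
  have key : ∀ g : G, (SimpleGraph.mulCayley S).Reachable 1 g := by
    intro g
    have hg : g ∈ Subgroup.closure S := by rw [hS]; trivial
    induction hg using Subgroup.closure_induction with
    | mem x hx =>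
      by_cases h : (1 : G) = x
      · rw [← h]
      · exact SimpleGraph.Adj.reachable ((SimpleGraph.mulCayley_adj S 1 x).mpr
          ⟨h, Or.inl (by simpa using hx)⟩)
    | one => exact SimpleGraph.Reachable.refl _
    | mul x y _ _ hx hy =>
      have := reachable_mul_left S x hy
      rw [mul_one] at this
      exact hx.trans this
    | inv x _ hx =>
      have := reachable_mul_left S x⁻¹ hx
      rw [mul_one, inv_mul_cancel] at this
      exact this.symm
  haveI : Nonempty G := ⟨1⟩
  exact ⟨fun x y => (key x).symm.trans (key y)⟩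

theorem dist_mul_left (hS : Subgroup.closure S = ⊤) (g x y : G) :
    (SimpleGraph.mulCayley S).dist (g * x) (g * y) = (SimpleGraph.mulCayley S).dist x y := by
  have hc := mulCayley_connected S hS
  have key : ∀ (g x y : G),
      (SimpleGraph.mulCayley S).dist (g * x) (g * y) ≤ (SimpleGraph.mulCayley S).dist x y := by
    intro g x y
    obtain ⟨p, hp⟩ := hc.exists_walk_length_eq_dist x y
    let f : SimpleGraph.mulCayley S →g SimpleGraph.mulCayley S :=
      ⟨fun a => g * a, fun {a b} h => SimpleGraph.mulCayley_adj_mul_iff_right.mpr h⟩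
    have : (p.map f).length = p.length := SimpleGraph.Walk.length_map f p
    rw [← hp, ← this]
    exact SimpleGraph.dist_le _
  refine le_antisymm (key g x y) ?_
  have := key g⁻¹ (g * x) (g * y)
  simpa using this

theorem ball_finite (hfin : S.Finite) (hS : Subgroup.closure S = ⊤) (n : ℕ) :
    {g : G | (SimpleGraph.mulCayley S).dist 1 g ≤ n}.Finite := by
  have hc := mulCayley_connected S hS
  induction n with
  | zero =>
    refine (Set.finite_singleton (1 : G)).subset ?_
    intro g hg
    simp only [Set.mem_setOf_eq, Nat.le_zero] at hg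
    rw [hc.dist_eq_zero_iff] at hg
    simp [hg]
  | succ n ih =>
    have hT : (S ∪ S⁻¹ ∪ {1}).Finite := (hfin.union hfin.inv).union (Set.finite_singleton _)
    refine ((ih.mul hT)).subset ?_
    intro g hg
    simp only [Set.mem_setOf_eq] at hg
    by_cases h0 : (SimpleGraph.mulCayley S).dist 1 g ≤ n
    · exact Set.mem_mul.mpr ⟨g, h0, 1, by simp, by simp⟩
    · have h1 : (SimpleGraph.mulCayley S).dist 1 g = n + 1 := by omega
      obtain ⟨v, hv1, hv2⟩ := exists_dist_eq hc 1 g n (by omega)
      have hv3 : (SimpleGraph.mulCayley S).dist v g = 1 := by omega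
      rw [SimpleGraph.dist_eq_one_iff_adj, SimpleGraph.mulCayley_adj] at hv3
      refine Set.mem_mul.mpr ⟨v, by simp [hv1], v⁻¹ * g, ?_, by simp⟩
      rcases hv3.2 with h | h
      · exact Or.inl (Or.inl h)
      · refine Or.inl (Or.inr ?_)
        simpa using h

end Cayley

theorem IsHyperbolicGroup.exists_hypMetric {G : Type*} [Group G] (h : IsHyperbolicGroup G) :
    Nonempty (HypMetric G) := by
  obtain ⟨S, hS, δ, hδ⟩ := h
  have hc := mulCayley_connected (S : Set G) hS
  exact ⟨{
    d := (SimpleGraph.mulCayley (S : Set G)).dist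
    δ := δ
    self := fun x => SimpleGraph.dist_self
    eq_of_zero := fun x y h => hc.dist_eq_zero_iff.mp h
    symm := fun x y => SimpleGraph.dist_comm
    tri := fun x y z => hc.dist_triangle
    inv := dist_mul_left (S : Set G) hS
    geo := exists_dist_eq hc
    fin := ball_finite (S : Set G) S.finite_toSet hS
    thin := thin_interval hc hδ }⟩

end Vale.Agent.P186
end

section

/-!
Quasiconvexity of centralizers, finite generation and finite index of quasiconvex normal subgroups.
-/

namespace Vale.Agent.P186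

namespace HypMetric

variable {G : Type*} [Group G] (M : HypMetric G)

/-- Two points of the interval between `x` and `y` at the same distance from `x` are close. -/
theorem same_dist {x y u v : G} (hu : M.d x u + M.d u y = M.d x y)
    (hv : M.d x v + M.d v y = M.d x y) (h : M.d x u = M.d x v) : M.d u v ≤ 2 * M.δ := by
  obtain ⟨w, hw, hd⟩ := M.thin x y u v hv
  have t1 := M.tri x w v
  have t2 := M.tri x v w
  have t3 := M.tri v w y
  have t4 := M.tri w v y
  have t5 := M.tri u w v
  have s1 := M.symm v w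
  have s2 := M.symm y w
  have s3 := M.symm y u
  have s4 := M.symm w u
  have s5 := M.symm u x
  have s6 := M.symm w x
  have s7 := M.symm v y
  rcases hw with hw | hw <;> omega

/-- Fellow travelling of geodesics whose endpoints are close. -/
theorem fellow {x y x' y' p p' : G} {m : ℕ} (hx : M.d x x' ≤ m) (hy : M.d y y' ≤ m)
    (hp : M.d x p + M.d p y = M.d x y) (hp' : M.d x' p' + M.d p' y' = M.d x' y')
    (ht : M.d x p = M.d x' p') : M.d p p' ≤ 5 * m + 6 * M.δ := by
  -- first find `w` near `p` on one of the other three sides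
  have hquad : ∃ w, (M.d x' w + M.d w y' = M.d x' y' ∨ M.d x w + M.d w x' = M.d x x' ∨
      M.d y w + M.d w y' = M.d y y') ∧ M.d p w ≤ 2 * M.δ := by
    obtain ⟨w, hw, hd⟩ := M.thin x y y' p hp
    rcases hw with hw | hw
    · exact ⟨w, Or.inr (Or.inr hw), by omega⟩
    · obtain ⟨w', hw', hd'⟩ := M.thin y' x x' w hw
      have t := M.tri p w w'
      rcases hw' with hw' | hw'
      · exact ⟨w', Or.inr (Or.inl hw'), by omega⟩
      · refine ⟨w', Or.inl hw', by omega⟩
  obtain ⟨w, hw, hd⟩ := hquad
  have s1 := M.symm x x'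
  have s2 := M.symm y y'
  have s3 := M.symm p w
  rcases hw with hw | hw | hw
  · -- `w` on the opposite side
    have t1 := M.tri x' x w
    have t2 := M.tri x p w
    have t3 := M.tri x x' w
    have t4 := M.tri x w p
    rcases le_total (M.d x' w) (M.d x' p') with hle | hle
    · obtain ⟨u, hu1, hu2⟩ := M.geo w y' (M.d x' p' - M.d x' w) (by omega)
      have t5 := M.tri x' w u
      have t6 := M.tri x' u y'
      have hu : M.d x' u + M.d u y' = M.d x' y' := by omega
      have := M.same_dist hu hp' (by omega)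
      have t7 := M.tri w u p'
      have t8 := M.tri p w p'
      omega
    · obtain ⟨u, hu1, hu2⟩ := M.geo x' w (M.d x' p') hle
      have t5 := M.tri u w y'
      have t6 := M.tri x' u y'
      have hu : M.d x' u + M.d u y' = M.d x' y' := by omega
      have := M.same_dist hu hp' (by omega)
      have t7 := M.tri w u p'
      have t8 := M.tri p w p'
      have s4 := M.symm u w
      omega
  · have t1 := M.tri x w p
    have t2 := M.tri p x p'
    have t3 := M.tri x x' p'
    have s4 := M.symm w p
    have s5 := M.symm p x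
    omega
  · have t1 := M.tri p w y
    have s4 := M.symm w y
    have t2 := M.tri p y p'
    have t3 := M.tri y y' p'
    have s5 := M.symm y' p'
    have t4 := M.tri x' x y'
    have t5 := M.tri x y y'
    omega

/-- A subgroup is quasiconvex with constant `k`. -/
def QC (H : Subgroup G) (k : ℕ) : Prop :=
  ∀ h ∈ H, ∀ p, M.d 1 p + M.d p h = M.d 1 h → ∃ c ∈ H, M.d p c ≤ k

/-- Centralizers of finite sets are quasiconvex. -/
theorem qc_centralizer (F : Set G) (hF : F.Finite) :
    ∃ k, M.QC (Subgroup.centralizer F) k := by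
  classical
  have : Finite F := hF
  -- a bound for the length of the elements of `F`
  obtain ⟨m, hm⟩ : ∃ m, ∀ f ∈ F, M.d 1 f ≤ m := by
    obtain ⟨m, hm⟩ := (hF.image (fun f => M.d 1 f)).bddAbove
    exact ⟨m, fun f hf => hm ⟨f, hf, rfl⟩⟩
  set K := 5 * m + 6 * M.δ with hK
  -- the finite set of tuples in the ball of radius `K`
  let T : Set (F → G) := {a | ∀ f, M.d 1 (a f) ≤ K}
  have hT : T.Finite := by
    have : T = Set.pi Set.univ (fun _ : F => {g : G | M.d 1 g ≤ K}) := by
      ext a; simp [T]
    rw [this]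
    exact Set.Finite.pi' (fun _ => M.fin K) |>.subset (fun a ha i => ha i trivial)
  -- shortest conjugators
  let P : (F → G) → ℕ → Prop := fun a n => ∃ u : G, M.d 1 u ≤ n ∧ ∀ f : F, u⁻¹ * a f * u = f
  obtain ⟨k, hk⟩ : ∃ k, ∀ a ∈ T, (∃ n, P a n) → P a k := by
    refine Set.Finite.induction_on_subset (motive := fun s _ => ∃ k, ∀ a ∈ s, (∃ n, P a n) → P a k)
      T hT ⟨0, by simp⟩ ?_
    intro a s _ _ _ ih
    obtain ⟨k, hk⟩ := ih
    by_cases h : ∃ n, P a n
    · obtain ⟨n, u, hu, hu'⟩ := h
      refine ⟨max k n, ?_⟩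
      intro b hb hPb
      rcases Set.mem_insert_iff.mp hb with rfl | hb
      · exact ⟨u, le_trans hu (le_max_right _ _), hu'⟩
      · obtain ⟨v, hv, hv'⟩ := hk b hb hPb
        exact ⟨v, le_trans hv (le_max_left _ _), hv'⟩
    · refine ⟨k, ?_⟩
      intro b hb hPb
      rcases Set.mem_insert_iff.mp hb with rfl | hb
      · exact absurd hPb h
      · exact hk b hb hPb
  refine ⟨k, ?_⟩
  intro h hh p hp
  have hcomm : ∀ f ∈ F, f * h = h * f := by
    intro f hf
    exact (Subgroup.mem_centralizer_iff.mp hh) f hf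
  -- conjugates of `f` by `p` are short
  have hshort : ∀ f : F, M.d 1 (p⁻¹ * f * p) ≤ K := by
    intro f
    have h1 : M.d p (f * p) ≤ 5 * m + 6 * M.δ := by
      refine M.fellow (x := 1) (y := h) (x' := f) (y' := f * h) (p := p) (p' := f * p)
        (m := m) (hm f f.2) ?_ hp ?_ ?_
      · rw [hcomm f f.2]
        have := M.inv h 1 f
        rw [mul_one] at this
        rw [this]
        exact hm f f.2
      · have e1 := M.inv f 1 p
        have e2 := M.inv f p h
        have e3 := M.inv f 1 h
        rw [mul_one] at e1 e3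
        rw [e1, e2, e3]
        exact hp
      · have e1 := M.inv f 1 p
        rw [mul_one] at e1
        rw [e1]
    have h2 := M.inv p⁻¹ p (f * p)
    rw [inv_mul_cancel] at h2
    rw [← mul_assoc] at h2
    rw [h2]
    exact h1
  have hP : P (fun f : F => p⁻¹ * f * p) (M.d 1 (p⁻¹ * h)) := by
    refine ⟨p⁻¹ * h, le_rfl, ?_⟩
    intro f
    have := hcomm f f.2
    calc (p⁻¹ * h)⁻¹ * (p⁻¹ * ↑f * p) * (p⁻¹ * h) = h⁻¹ * (↑f * h) := by group
      _ = f := by rw [this]; group
  obtain ⟨u, hu, hu'⟩ := hk _ (show (fun f : F => p⁻¹ * ↑f * p) ∈ T from hshort) ⟨_, hP⟩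
  refine ⟨p * u, ?_, ?_⟩
  · rw [Subgroup.mem_centralizer_iff]
    intro f hf
    have := hu' ⟨f, hf⟩
    simp only at this
    have h3 : (p * u)⁻¹ * f * (p * u) = f :=
      calc (p * u)⁻¹ * f * (p * u) = u⁻¹ * (p⁻¹ * f * p) * u := by group
        _ = f := this
    calc f * (p * u) = (p * u) * ((p * u)⁻¹ * f * (p * u)) := by group
      _ = (p * u) * f := by rw [h3]
  · have := M.inv p 1 u
    rw [mul_one] at this
    rw [this]
    exact hu

/-- Quasiconvex subgroups are finitely generated. -/
theorem fg_of_qc {H : Subgroup G} {k : ℕ} (hH : M.QC H k) : H.FG := by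
  classical
  have hfin : ((H : Set G) ∩ {g : G | M.d 1 g ≤ 2 * k + 1}).Finite :=
    (M.fin (2 * k + 1)).subset Set.inter_subset_right
  refine ⟨hfin.toFinset, ?_⟩
  rw [Set.Finite.coe_toFinset]
  apply le_antisymm
  · rw [Subgroup.closure_le]
    exact Set.inter_subset_left
  · intro h hh
    induction' hn : M.d 1 h using Nat.strong_induction_on with n ih generalizing h
    by_cases hle : n ≤ 2 * k + 1
    · exact Subgroup.subset_closure ⟨hh, by simpa [hn] using hle⟩
    · obtain ⟨p, hp1, hp2⟩ := M.geo 1 h (k + 1) (by omega)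
      obtain ⟨c, hc, hpc⟩ := hH h hh p (by omega)
      have t1 := M.tri 1 p c
      have t2 := M.tri c p h
      have s1 := M.symm c p
      have e1 := M.inv c⁻¹ c h
      rw [inv_mul_cancel] at e1
      have hmem := ih (M.d 1 (c⁻¹ * h)) (by omega) (H.mul_mem (H.inv_mem hc) hh) rfl
      have hc' : c ∈ Subgroup.closure ((H : Set G) ∩ {g : G | M.d 1 g ≤ 2 * k + 1}) :=
        Subgroup.subset_closure ⟨hc, show M.d 1 c ≤ 2 * k + 1 by omega⟩
      have := Subgroup.mul_mem _ hc' hmem
      simpa using this

/-- A minimal element of a coset of an infinite quasiconvex subgroup which it normalizes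
is short. -/
theorem short_of_qc {H : Subgroup G} {k : ℕ} (hH : M.QC H k) (hinf : (H : Set G).Infinite)
    (g : G) (hconj : ∀ h ∈ H, g * h * g⁻¹ ∈ H) (hconj' : ∀ h ∈ H, g⁻¹ * h * g ∈ H)
    (hg : ∀ h ∈ H, M.d 1 g ≤ M.d 1 (g * h)) : M.d 1 g ≤ 2 * k + 2 * M.δ := by
  classical
  set L := M.d 1 g with hL
  -- a long element of `H`
  obtain ⟨h, hh, hlong⟩ : ∃ h ∈ H, 4 * L + 4 * M.δ + 10 < M.d 1 h := by
    by_contra hcon
    push Not at hcon
    exact hinf ((M.fin (4 * L + 4 * M.δ + 10)).subset fun h hh => hcon h hh)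
  have hconj0 : g * h * g⁻¹ ∈ H := hconj h hh
  set h' := g * h * g⁻¹ with hh'
  have e0 : h' * g = g * h := by rw [hh']; group
  have e1 : M.d h' (g * h) = L := by
    have := M.inv h' 1 g
    rw [mul_one, e0] at this
    rw [this]
  have e2 : M.d g (g * h) = M.d 1 h := by
    have := M.inv g 1 h
    rwa [mul_one] at this
  have t1 := M.tri g 1 (g * h)
  have t2 := M.tri 1 h' (g * h)
  have s1 := M.symm g 1
  have hlen : 2 * L + 4 * M.δ + 10 < M.d 1 h' := by omega
  obtain ⟨p, hp1, hp2⟩ := M.geo 1 h' (L + 2 * M.δ + 1) (by omega)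
  obtain ⟨c, hc, hpc⟩ := hH h' hconj0 p (by omega)
  -- a point on `[g, g h]` close to `p`
  have hw : ∃ w, M.d g w + M.d w (g * h) = M.d g (g * h) ∧ M.d p w ≤ 2 * M.δ := by
    obtain ⟨w, hw, hd⟩ := M.thin 1 h' (g * h) p (by omega)
    have t3 := M.tri p w h'
    have s2 := M.symm w h'
    have t4 := M.tri 1 w p
    have s3 := M.symm w p
    rcases hw with hw | hw
    · exfalso; omega
    · obtain ⟨w', hw', hd'⟩ := M.thin (g * h) 1 g w hw
      have t := M.tri p w w'
      have t5 := M.tri 1 w' p
      have s4 := M.symm p w'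
      rcases hw' with hw' | hw'
      · exfalso
        omega
      · exact ⟨w', hw', by omega⟩
  obtain ⟨w, hw, hd⟩ := hw
  have e3 : M.d 1 (g⁻¹ * w) + M.d (g⁻¹ * w) h = M.d 1 h := by
    have a1 := M.inv g⁻¹ g w
    have a2 := M.inv g⁻¹ w (g * h)
    rw [inv_mul_cancel] at a1
    rw [inv_mul_cancel_left] at a2
    omega
  obtain ⟨c', hc', hwc⟩ := hH h hh (g⁻¹ * w) e3
  have e4 : M.d w (g * c') = M.d (g⁻¹ * w) c' := by
    have := M.inv g (g⁻¹ * w) c'
    rw [mul_inv_cancel_left] at this
    exact this
  have e5 : M.d 1 (c⁻¹ * (g * c')) = M.d c (g * c') := by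
    have := M.inv c⁻¹ c (g * c')
    rw [inv_mul_cancel] at this
    exact this
  have hmem : (g⁻¹ * c⁻¹ * g) * c' ∈ H := H.mul_mem (hconj' c⁻¹ (H.inv_mem hc)) hc'
  have hmin := hg _ hmem
  have e6 : g * (g⁻¹ * c⁻¹ * g * c') = c⁻¹ * (g * c') := by group
  rw [e6, e5] at hmin
  have t6 := M.tri c p (g * c')
  have t7 := M.tri p w (g * c')
  have s5 := M.symm c p
  omega

/-- An infinite quasiconvex subgroup has finite index in every subgroup normalizing it. -/
theorem relIndex_of_qc {H K : Subgroup G} {k : ℕ} (hH : M.QC H k)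
    (hinf : (H : Set G).Infinite) (hK : ∀ g ∈ K, ∀ h ∈ H, g * h * g⁻¹ ∈ H) :
    H.relIndex K ≠ 0 := by
  classical
  -- every element of `K` has a short representative modulo `H`
  have key : ∀ g ∈ K, ∃ x, M.d 1 x ≤ 2 * k + 2 * M.δ ∧ g⁻¹ * x ∈ H := by
    intro g hg
    have hex : ∃ n, ∃ x, g⁻¹ * x ∈ H ∧ M.d 1 x = n := ⟨_, g, by simp, rfl⟩
    obtain ⟨x, hx1, hx2⟩ := Nat.find_spec hex
    refine ⟨x, ?_, hx1⟩
    have hx : x = g * (g⁻¹ * x) := by group
    refine M.short_of_qc hH hinf x ?_ ?_ ?_
    · intro h hh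
      have h1 : (g⁻¹ * x) * h * (g⁻¹ * x)⁻¹ ∈ H :=
        H.mul_mem (H.mul_mem hx1 hh) (H.inv_mem hx1)
      have h2 := hK g hg _ h1
      have e : g * ((g⁻¹ * x) * h * (g⁻¹ * x)⁻¹) * g⁻¹ = x * h * x⁻¹ := by group
      rwa [e] at h2
    · intro h hh
      have h2 := hK g⁻¹ (K.inv_mem hg) h hh
      have h1 := H.mul_mem (H.mul_mem (H.inv_mem hx1) h2) hx1
      have e : (g⁻¹ * x)⁻¹ * (g⁻¹ * h * g⁻¹⁻¹) * (g⁻¹ * x) = x⁻¹ * h * x := by group
      rwa [e] at h1
    · intro h hh
      rw [hx2]
      apply Nat.find_min' hex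
      refine ⟨x * h, ?_, rfl⟩
      rw [← mul_assoc]
      exact H.mul_mem hx1 hh
  have : Finite (K ⧸ H.subgroupOf K) := by
    have hfin := M.fin (2 * k + 2 * M.δ)
    have hfin' : Finite {g : G | M.d 1 g ≤ 2 * k + 2 * M.δ} := hfin
    choose f hf1 hf2 using key
    refine Finite.of_injective
      (fun q : K ⧸ H.subgroupOf K =>
        (⟨f q.out.1 q.out.2, hf1 q.out.1 q.out.2⟩ : {g : G | M.d 1 g ≤ 2 * k + 2 * M.δ})) ?_
    intro q r hqr
    have h1 : f q.out.1 q.out.2 = f r.out.1 r.out.2 := congrArg Subtype.val hqr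
    have h2 := hf2 q.out.1 q.out.2
    have h3 := hf2 r.out.1 r.out.2
    rw [h1] at h2
    have h4 : (q.out.1)⁻¹ * r.out.1 ∈ H := by
      have := H.mul_mem h2 (H.inv_mem h3)
      have e : (q.out.1)⁻¹ * f r.out.1 r.out.2 * ((r.out.1)⁻¹ * f r.out.1 r.out.2)⁻¹ =
        (q.out.1)⁻¹ * r.out.1 := by group
      rwa [e] at this
    have h5 : (QuotientGroup.mk q.out : K ⧸ H.subgroupOf K) = QuotientGroup.mk r.out := by
      rw [QuotientGroup.eq, Subgroup.mem_subgroupOf]
      exact h4
    rwa [QuotientGroup.out_eq', QuotientGroup.out_eq'] at h5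
  exact (Subgroup.finiteIndex_of_finite_quotient (H := H.subgroupOf K)).index_ne_zero

end HypMetric

end Vale.Agent.P186
end

section

/-!
Finite residuals and finitely generated normal subgroups (general group theory).
-/

namespace Vale.Agent.P186

variable {G : Type*} [Group G]

theorem mem_finiteResidual {g : G} :
    g ∈ finiteResidual G ↔ ∀ H : Subgroup G, H.FiniteIndex → g ∈ H := by
  simp [finiteResidual, Subgroup.mem_iInf]

theorem residuallyFinite_iff_finiteResidual :
    Group.ResiduallyFinite G ↔ finiteResidual G = ⊥ := by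
  rw [Group.residuallyFinite_iff_forall_finiteIndex, Subgroup.eq_bot_iff_forall]
  refine forall_congr' fun g => ?_
  rw [mem_finiteResidual]

/-- There are only finitely many homomorphisms from a finitely generated group to a finite one. -/
theorem finite_hom {N F : Type*} [Group N] [Group F] [Finite F] (hN : Group.FG N) :
    Finite (N →* F) := by
  obtain ⟨S, hS⟩ := hN.out
  refine Finite.of_injective (fun (f : N →* F) (s : S) => f s) ?_
  intro f g hfg
  apply MonoidHom.eq_of_eqOn_dense hS
  intro s hs
  exact congrFun hfg ⟨s, hs⟩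

/-- In a finitely generated group every finite-index subgroup contains a finite-index subgroup
invariant under all automorphisms. -/
theorem exists_invariant {N : Type*} [Group N] (hN : Group.FG N) (K : Subgroup N)
    [hK : K.FiniteIndex] :
    ∃ L : Subgroup N, L.FiniteIndex ∧ L ≤ K ∧ ∀ (φ : N ≃* N), ∀ x ∈ L, φ x ∈ L := by
  classical
  let F := Equiv.Perm (N ⧸ K)
  have : Finite (N ⧸ K) := Subgroup.finite_quotient_of_finiteIndex
  have : Finite F := inferInstance
  have hfin : Finite (N →* F) := finite_hom hN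
  refine ⟨⨅ f : N →* F, f.ker, ?_, ?_, ?_⟩
  · have : ∀ f : N →* F, f.ker.FiniteIndex := fun f => Subgroup.finiteIndex_ker f
    exact Subgroup.finiteIndex_iInf this
  · intro x hx
    rw [Subgroup.mem_iInf] at hx
    have h := hx (MulAction.toPermHom N (N ⧸ K))
    rw [MonoidHom.mem_ker] at h
    have h2 : (MulAction.toPermHom N (N ⧸ K)) x ((1 : N) : N ⧸ K) = ((1 : N) : N ⧸ K) := by
      rw [h]; rfl
    have h3 : ((x * 1 : N) : N ⧸ K) = ((1 : N) : N ⧸ K) := h2
    rw [mul_one, eq_comm, QuotientGroup.eq] at h3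
    simpa using h3
  · intro φ x hx
    rw [Subgroup.mem_iInf] at hx ⊢
    intro f
    have := hx (f.comp φ.toMonoidHom)
    rw [MonoidHom.mem_ker] at this ⊢
    exact this

/-- The commutator of the finite residual of `G` with a finitely generated normal subgroup `N`
lies in the finite residual of `N`. -/
theorem commutator_residual (N : Subgroup G) [hNn : N.Normal] (hN : Group.FG N) {g : G}
    (hg : g ∈ finiteResidual G) (n : N) :
    ∃ r ∈ finiteResidual N, g * n * g⁻¹ = (r : G) * n := by
  classical
  refine ⟨⟨g * n * g⁻¹ * (n : G)⁻¹, N.mul_mem (hNn.conj_mem n n.2 g) (N.inv_mem n.2)⟩, ?_, ?_⟩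
  · rw [mem_finiteResidual]
    intro K hK
    obtain ⟨L, hL, hLK, hLinv⟩ := exists_invariant hN K
    apply hLK
    -- `L` is invariant under conjugation by `G`
    have hconj : ∀ (x : G) (l : N), l ∈ L → (⟨x * l * x⁻¹, hNn.conj_mem l l.2 x⟩ : N) ∈ L := by
      intro x l hl
      exact hLinv (MulAut.conjNormal x) l hl
    have hLn : L.Normal := by
      constructor
      intro l hl x
      have := hconj (x : G) l hl
      exact this
    -- the subgroup of elements acting trivially on `N / L`
    let A : G →* MulAut (N ⧸ L) :=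
      { toFun := fun x => QuotientGroup.congr L L (MulAut.conjNormal x) (by
          apply le_antisymm
          · rintro _ ⟨l, hl, rfl⟩
            exact hLinv _ l hl
          · intro l hl
            refine ⟨(MulAut.conjNormal x⁻¹ : MulAut N) l, hLinv _ l hl, ?_⟩
            ext
            simp)
        map_one' := by
          ext q
          obtain ⟨n, rfl⟩ := QuotientGroup.mk_surjective q
          simp
        map_mul' := by
          intro x y
          ext q
          obtain ⟨n, rfl⟩ := QuotientGroup.mk_surjective q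
          simp }
    have : Finite (N ⧸ L) := Subgroup.finite_quotient_of_finiteIndex
    have : Finite (MulAut (N ⧸ L)) := by
      refine Finite.of_injective (fun (f : MulAut (N ⧸ L)) => (f : N ⧸ L → N ⧸ L)) ?_
      intro f g h
      exact MulEquiv.ext (congrFun h)
    have hker : g ∈ A.ker := (mem_finiteResidual.mp hg) A.ker (Subgroup.finiteIndex_ker A)
    rw [MonoidHom.mem_ker] at hker
    have h1 : A g (n : N ⧸ L) = (n : N ⧸ L) := by rw [hker]; rfl
    have h2 : ((MulAut.conjNormal g n : N) : N ⧸ L) = (n : N ⧸ L) := h1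
    rw [eq_comm, QuotientGroup.eq] at h2
    have h3 := hLn.conj_mem _ h2 n
    have h4 : n * (n⁻¹ * MulAut.conjNormal g n) * n⁻¹ =
      (⟨g * n * g⁻¹ * (n : G)⁻¹, N.mul_mem (hNn.conj_mem n n.2 g) (N.inv_mem n.2)⟩ : N) := by
      ext
      simp [MulAut.conjNormal_apply]
    rwa [h4] at h3
  · simp

/-- The finite residual of a subgroup is contained in that of the group. -/
theorem finiteResidual_le (N : Subgroup G) {r : N} (hr : r ∈ finiteResidual N) :
    (r : G) ∈ finiteResidual G := by
  rw [mem_finiteResidual] at hr ⊢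
  intro H hH
  have := hr (H.subgroupOf N) inferInstance
  rwa [Subgroup.mem_subgroupOf] at this

/-- If `N` is a finitely generated normal subgroup with finite centralizer and finite residual,
then `G` has finite residual. -/
theorem finite_finiteResidual (N : Subgroup G) [hNn : N.Normal] (hN : Group.FG N)
    (hC : (Subgroup.centralizer (N : Set G) : Set G).Finite)
    (hR : (finiteResidual N : Set N).Finite) : (finiteResidual G : Set G).Finite := by
  classical
  obtain ⟨S, hS⟩ := hN.out
  -- map `g ↦ (g s g⁻¹ s⁻¹)_s`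
  let Φ : G → (S → G) := fun g s => g * (s : N) * g⁻¹ * ((s : N) : G)⁻¹
  have himg : (Φ '' (finiteResidual G : Set G)).Finite := by
    have hfin : (Set.pi Set.univ (fun _ : S => ((↑) : N → G) '' (finiteResidual N : Set N))).Finite :=
      Set.Finite.pi' (fun _ => hR.image _) |>.subset (fun a ha i => ha i trivial)
    refine hfin.subset ?_
    rintro _ ⟨g, hg, rfl⟩ s _
    obtain ⟨r, hr, hrs⟩ := commutator_residual N hN hg (s : N)
    refine ⟨r, hr, ?_⟩
    simp only [Φ]
    rw [hrs]; group
  have hfib : ∀ b ∈ Φ '' (finiteResidual G : Set G), ((finiteResidual G : Set G) ∩ Φ ⁻¹' {b}).Finite := by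
    rintro _ ⟨g, hg, rfl⟩
    refine ((hC.image (fun c => g * c))).subset ?_
    rintro x ⟨hx, hxg⟩
    refine ⟨g⁻¹ * x, ?_, by group⟩
    -- `g⁻¹ x` centralizes `N`
    have hall : ∀ s : S, g * (s : N) * g⁻¹ = x * ((s : N) : G) * x⁻¹ := by
      intro s
      have : Φ x s = Φ g s := congrFun hxg s
      simp only [Φ] at this
      exact (mul_right_cancel this).symm
    have hcl : ∀ n : N, g⁻¹ * x * n * (g⁻¹ * x)⁻¹ = n := by
      intro n
      have hn : n ∈ Subgroup.closure (S : Set N) := by rw [hS]; trivial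
      induction hn using Subgroup.closure_induction with
      | mem s hs =>
        have := hall ⟨s, hs⟩
        simp only at this
        calc g⁻¹ * x * s * (g⁻¹ * x)⁻¹ = g⁻¹ * (x * s * x⁻¹) * g := by group
          _ = g⁻¹ * (g * s * g⁻¹) * g := by rw [this]
          _ = s := by group
      | one => simp
      | mul a b _ _ ha hb =>
        calc g⁻¹ * x * ((a * b : N) : G) * (g⁻¹ * x)⁻¹
            = (g⁻¹ * x * a * (g⁻¹ * x)⁻¹) * (g⁻¹ * x * b * (g⁻¹ * x)⁻¹) := by
              rw [Subgroup.coe_mul]; group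
          _ = ((a * b : N) : G) := by rw [ha, hb, Subgroup.coe_mul]
      | inv a _ ha =>
        calc g⁻¹ * x * ((a⁻¹ : N) : G) * (g⁻¹ * x)⁻¹
            = (g⁻¹ * x * a * (g⁻¹ * x)⁻¹)⁻¹ := by
              rw [Subgroup.coe_inv]; group
          _ = ((a⁻¹ : N) : G) := by rw [ha, Subgroup.coe_inv]
    show g⁻¹ * x ∈ Subgroup.centralizer (N : Set G)
    rw [Subgroup.mem_centralizer_iff]
    intro n hn
    have := hcl ⟨n, hn⟩
    simp only at this
    rw [mul_inv_eq_iff_eq_mul] at this
    exact this.symm
  exact Set.Finite.of_finite_fibers Φ himg hfib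

/-- A virtually torsion-free group with finite finite residual is residually finite. -/
theorem residuallyFinite_of_finite (hV : IsVirtuallyTorsionFree G)
    (hR : (finiteResidual G : Set G).Finite) : Group.ResiduallyFinite G := by
  rw [residuallyFinite_iff_finiteResidual, Subgroup.eq_bot_iff_forall]
  obtain ⟨H, hH, hHt⟩ := hV
  intro g hg
  apply hHt g ((mem_finiteResidual.mp hg) H hH)
  have : Finite (finiteResidual G) := hR
  have h2 : IsOfFinOrder (⟨g, hg⟩ : finiteResidual G) := isOfFinOrder_of_finite _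
  exact (Submonoid.isOfFinOrder_coe (H := (finiteResidual G).toSubmonoid) (x := ⟨g, hg⟩)).mpr h2

end Vale.Agent.P186
end

section

/-!
Residual finiteness of finitely generated virtually abelian groups.
-/

namespace Vale.Agent.P186

theorem residuallyFinite_of_injective {G H : Type*} [Group G] [Group H] (f : G →* H)
    (hf : Function.Injective f) [hH : Group.ResiduallyFinite H] : Group.ResiduallyFinite G := by
  rw [Group.residuallyFinite_iff_exists_finiteIndex] at hH ⊢
  intro g hg
  obtain ⟨K, hK, hgK⟩ := hH (f g) (by rwa [Ne, map_eq_one_iff f hf])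
  refine ⟨K.comap f, ?_, hgK⟩
  constructor
  rw [Subgroup.index_comap]
  exact fun h => hK.index_ne_zero (Subgroup.index_eq_zero_of_relIndex_eq_zero h)

theorem residuallyFinite_of_finiteIndex {G : Type*} [Group G] (H : Subgroup G) [hHi : H.FiniteIndex]
    (hH : Group.ResiduallyFinite H) : Group.ResiduallyFinite G := by
  rw [Group.residuallyFinite_iff_exists_finiteIndex] at hH ⊢
  intro g hg
  by_cases hgH : g ∈ H
  · obtain ⟨K, hK, hgK⟩ := hH ⟨g, hgH⟩ (by
      intro h; apply hg; exact congrArg Subtype.val h)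
    refine ⟨K.map H.subtype, ?_, ?_⟩
    · constructor
      rw [← Subgroup.relIndex_mul_index (Subgroup.map_subtype_le K)]
      refine mul_ne_zero ?_ hHi.index_ne_zero
      have : (K.map H.subtype).subgroupOf H = K := by
        ext x
        simp [Subgroup.mem_subgroupOf]
      rw [Subgroup.relIndex, this]
      exact hK.index_ne_zero
    · intro hmem
      obtain ⟨x, hx, hxg⟩ := hmem
      apply hgK
      have : x = ⟨g, hgH⟩ := Subtype.ext hxg
      rwa [← this]
  · exact ⟨H, hHi, hgH⟩

theorem residuallyFinite_pi_int (j : Type*) : Group.ResiduallyFinite (j → Multiplicative ℤ) := by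
  rw [Group.residuallyFinite_iff_exists_finiteIndex]
  intro f hf
  obtain ⟨i, hi⟩ : ∃ i, f i ≠ 1 := by
    by_contra h
    push Not at h
    exact hf (funext h)
  set z : ℤ := Multiplicative.toAdd (f i) with hz
  have hz0 : z ≠ 0 := by
    intro h
    apply hi
    rw [hz] at h
    exact h
  set m : ℕ := z.natAbs + 1 with hm
  have : NeZero m := ⟨by omega⟩
  let φ : (j → Multiplicative ℤ) →* Multiplicative (ZMod m) :=
    (AddMonoidHom.toMultiplicative (Int.castAddHom (ZMod m))).comp (Pi.evalMonoidHom _ i)
  refine ⟨φ.ker, Subgroup.finiteIndex_ker φ, ?_⟩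
  rw [MonoidHom.mem_ker]
  intro h
  have h2 : ((z : ℤ) : ZMod m) = 0 := h
  rw [ZMod.intCast_zmod_eq_zero_iff_dvd] at h2
  have h3 := Int.natAbs_dvd_natAbs.mpr h2
  have h4 := Nat.le_of_dvd (by omega) h3
  simp at h4
  omega

theorem residuallyFinite_of_comm {A : Type*} [CommGroup A] [Group.FG A] :
    Group.ResiduallyFinite A := by
  obtain ⟨ι, j, _, _, p, hp, e, ⟨f⟩⟩ := CommGroup.equiv_free_prod_prod_multiplicative_zmod A
  have h1 : Group.ResiduallyFinite (j → Multiplicative ℤ) := residuallyFinite_pi_int j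
  have : ∀ i, NeZero (p i ^ e i) := fun i => ⟨pow_ne_zero _ (hp i).ne_zero⟩
  have : ∀ i, Finite (Multiplicative (ZMod (p i ^ e i))) := fun i => by
    have : Fintype (ZMod (p i ^ e i)) := ZMod.fintype _
    exact Finite.of_fintype _
  have h2 : Finite ((i : ι) → Multiplicative (ZMod (p i ^ e i))) := inferInstance
  have h3 : Group.ResiduallyFinite ((i : ι) → Multiplicative (ZMod (p i ^ e i))) := inferInstance
  exact residuallyFinite_of_injective f.toMonoidHom f.injective

/-- A finitely generated group with an abelian subgroup of finite index is residually finite. -/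
theorem residuallyFinite_of_virtually_abelian {G : Type*} [Group G] [hG : Group.FG G]
    (A : Subgroup G) [hA : A.FiniteIndex] (hcomm : ∀ a ∈ A, ∀ b ∈ A, a * b = b * a) :
    Group.ResiduallyFinite G := by
  have hfg : Group.FG A := inferInstance
  let _ : CommGroup A := { (inferInstance : Group A) with
    mul_comm := fun a b => Subtype.ext (hcomm a a.2 b b.2) }
  have : Group.ResiduallyFinite A := residuallyFinite_of_comm
  exact residuallyFinite_of_finiteIndex A this

/-- A group with a finitely generated subgroup of finite index is finitely generated. -/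
theorem fg_of_finiteIndex_fg {G : Type*} [Group G] (H : Subgroup G) [H.FiniteIndex]
    (hH : Group.FG H) : Group.FG G := by
  classical
  obtain ⟨S, hS⟩ := (Group.fg_iff_subgroup_fg H).mp hH
  have : Finite (G ⧸ H) := Subgroup.finite_quotient_of_finiteIndex
  have hfin : (Set.range (fun q : G ⧸ H => q.out)).Finite := Set.finite_range _
  refine ⟨S ∪ hfin.toFinset, ?_⟩
  rw [eq_top_iff]
  intro g _
  have h1 : (QuotientGroup.mk g : G ⧸ H).out⁻¹ * g ∈ H := by
    rw [← QuotientGroup.eq, QuotientGroup.out_eq']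
  have h2 : (QuotientGroup.mk g : G ⧸ H).out⁻¹ * g ∈
      Subgroup.closure ((S ∪ hfin.toFinset : Finset G) : Set G) := by
    have h4 : H ≤ Subgroup.closure ((S ∪ hfin.toFinset : Finset G) : Set G) :=
      hS.symm.le.trans (Subgroup.closure_mono (by simp))
    exact h4 h1
  have h3 : (QuotientGroup.mk g : G ⧸ H).out ∈
      Subgroup.closure ((S ∪ hfin.toFinset : Finset G) : Set G) := by
    refine Subgroup.subset_closure ?_
    simp
  have := Subgroup.mul_mem _ h3 h2
  simpa using this

theorem fg_map {G H : Type*} [Group G] [Group H] (f : G →* H) {N : Subgroup G} (hN : N.FG) :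
    (N.map f).FG := by
  classical
  obtain ⟨S, hS⟩ := hN
  refine ⟨S.image f, ?_⟩
  rw [Finset.coe_image, ← MonoidHom.map_closure, hS]

end Vale.Agent.P186
end

section

/-!
Residual finiteness of hyperbolic groups with an infinite finitely generated normal subgroup.
-/

namespace Vale.Agent.P186

variable {G : Type*} [Group G]

namespace HypMetric

variable (M : HypMetric G)

/-- Midpoint estimate: a point of `[x, y]` at distance `t` from `x` is closer to `f`. -/
theorem midpoint {x y f m : G} {r : ℕ} (hx : M.d x f ≤ r) (hy : M.d y f ≤ r)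
    (hm : M.d x m + M.d m y = M.d x y) :
    M.d m f + M.d x m ≤ r + 2 * M.δ ∨ M.d m f + M.d m y ≤ r + 2 * M.δ := by
  obtain ⟨w, hw, hd⟩ := M.thin x y f m hm
  have t1 := M.tri m w f
  have t2 := M.tri x w m
  have t3 := M.tri m w y
  have s1 := M.symm w m
  have s2 := M.symm y w
  have s3 := M.symm f w
  have s4 := M.symm w x
  have s5 := M.symm f x
  rcases hw with hw | hw
  · right; omega
  · left; omega

/-- Every element of finite order is conjugate to an element of length at most `4 δ + 2`. -/
theorem exists_conj_short {g : G} (hg : IsOfFinOrder g) :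
    ∃ x : G, M.d 1 (x⁻¹ * g * x) ≤ 4 * M.δ + 2 := by
  classical
  have hfin : (Subgroup.zpowers g : Set G).Finite := finite_zpowers.mpr hg
  -- the minimal radius
  have hex : ∃ r, ∃ x : G, ∀ f ∈ Subgroup.zpowers g, M.d x f ≤ r := by
    obtain ⟨r, hr⟩ := (hfin.image (fun f => M.d 1 f)).bddAbove
    exact ⟨r, 1, fun f hf => hr ⟨f, hf, rfl⟩⟩
  obtain ⟨x, hx⟩ := Nat.find_spec hex
  set r := Nat.find hex with hr
  have hgx : ∀ f ∈ Subgroup.zpowers g, M.d (g * x) f ≤ r := by
    intro f hf
    have h1 := hx (g⁻¹ * f)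
      (Subgroup.mul_mem _ (Subgroup.inv_mem _ (Subgroup.mem_zpowers g)) hf)
    have h2 := M.inv g x (g⁻¹ * f)
    rw [mul_inv_cancel_left] at h2
    rw [h2]; exact h1
  refine ⟨x, ?_⟩
  have e1 : M.d 1 (x⁻¹ * g * x) = M.d x (g * x) := by
    have := M.inv x⁻¹ x (g * x)
    rw [inv_mul_cancel, ← mul_assoc] at this
    exact this
  rw [e1]
  by_contra hcon
  push Not at hcon
  obtain ⟨m, hm1, hm2⟩ := M.geo x (g * x) (2 * M.δ + 1) (by omega)
  have hlt : ∀ f ∈ Subgroup.zpowers g, M.d m f ≤ r - 1 := by
    intro f hf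
    have := M.midpoint (hx f hf) (hgx f hf) (m := m) (by omega)
    omega
  have hr0 : r ≠ 0 := by
    intro h0
    have h1 := hx 1 (Subgroup.one_mem _)
    have h2 := hx g (Subgroup.mem_zpowers g)
    have h3 := hgx g (Subgroup.mem_zpowers g)
    have t := M.tri x g (g * x)
    have s := M.symm g (g * x)
    omega
  have := Nat.find_min hex (m := r - 1) (by omega)
  exact this ⟨m, hlt⟩

include M in
/-- Residually finite hyperbolic groups are virtually torsion-free. -/
theorem virtuallyTorsionFree_of_residuallyFinite [hR : Group.ResiduallyFinite G] :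
    IsVirtuallyTorsionFree G := by
  classical
  have hR' := Group.residuallyFinite_iff_exists_finiteIndexNormalSubgroup.mp hR
  have hfin : ({g : G | M.d 1 g ≤ 4 * M.δ + 2} \ {1}).Finite := (M.fin _).subset Set.sdiff_subset
  choose K hK using hR'
  have : Finite ↥({g : G | M.d 1 g ≤ 4 * M.δ + 2} \ {1}) := hfin
  let H : Subgroup G := ⨅ g : ↥({g : G | M.d 1 g ≤ 4 * M.δ + 2} \ {1}), (K g.1 g.2.2).toSubgroup
  have hHf : H.FiniteIndex := Subgroup.finiteIndex_iInf (fun g => (K g.1 g.2.2).isFiniteIndex')
  have hHn : H.Normal := Subgroup.normal_iInf_normal (fun g => (K g.1 g.2.2).isNormal')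
  refine ⟨H, hHf, ?_⟩
  intro h hh hfo
  obtain ⟨x, hx⟩ := M.exists_conj_short hfo
  by_contra hne
  have hne' : x⁻¹ * h * x ≠ 1 := by
    intro h0
    apply hne
    have : h = x * (x⁻¹ * h * x) * x⁻¹ := by group
    rw [this, h0]; group
  have hmem : x⁻¹ * h * x ∈ H := by
    have := hHn.conj_mem h hh x⁻¹
    simpa using this
  rw [Subgroup.mem_iInf] at hmem
  exact hK _ _ (hmem ⟨x⁻¹ * h * x, hx, hne'⟩)

include M in
/-- If a finitely generated infinite subgroup `N` has infinite centralizer, then every subgroup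
normalizing it is residually finite (it is virtually abelian). -/
theorem residuallyFinite_of_infinite_centralizer (N : Subgroup G)
    (hN : N.FG) (hinf : (N : Set G).Infinite)
    (hC : (Subgroup.centralizer (N : Set G) : Set G).Infinite)
    (K : Subgroup G) (hK : ∀ g ∈ K, ∀ n ∈ N, g * n * g⁻¹ ∈ N) : Group.ResiduallyFinite K := by
  classical
  -- the centralizer of a finitely generated subgroup is quasiconvex
  have hqc : ∀ K : Subgroup G, K.FG → ∃ k, M.QC (Subgroup.centralizer (K : Set G)) k := by
    intro K hK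
    obtain ⟨S, hS⟩ := hK
    obtain ⟨k, hk⟩ := M.qc_centralizer (S : Set G) S.finite_toSet
    refine ⟨k, ?_⟩
    have : Subgroup.centralizer (K : Set G) = Subgroup.centralizer (S : Set G) := by
      rw [← hS, Subgroup.centralizer_closure]
    rw [this]; exact hk
  -- conjugation invariance passes to centralizers
  have hconj : ∀ (A : Subgroup G) (g : G), (∀ a ∈ A, g * a * g⁻¹ ∈ A) →
      (∀ a ∈ A, g⁻¹ * a * g ∈ A) → ∀ c ∈ Subgroup.centralizer (A : Set G),
      g * c * g⁻¹ ∈ Subgroup.centralizer (A : Set G) := by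
    intro A g h1 h2 c hc
    rw [Subgroup.mem_centralizer_iff] at hc ⊢
    intro a ha
    have := hc _ (h2 a ha)
    calc a * (g * c * g⁻¹) = g * ((g⁻¹ * a * g) * c) * g⁻¹ := by group
      _ = g * (c * (g⁻¹ * a * g)) * g⁻¹ := by rw [this]
      _ = g * c * g⁻¹ * a := by group
  set C := Subgroup.centralizer (N : Set G) with hCdef
  obtain ⟨k, hk⟩ := hqc N hN
  have hCfg : C.FG := M.fg_of_qc hk
  set D := Subgroup.centralizer (C : Set G) with hDdef
  obtain ⟨l, hl⟩ := hqc C hCfg
  have hDfg : D.FG := M.fg_of_qc hl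
  have hND : N ≤ D := by
    intro n hn
    rw [hDdef, Subgroup.mem_centralizer_iff]
    intro c hc
    exact ((Subgroup.mem_centralizer_iff.mp hc) n hn).symm
  have hDinf : (D : Set G).Infinite := hinf.mono hND
  -- `C ⊓ D` has finite index in `D`
  have hCD : C.relIndex D ≠ 0 := by
    refine M.relIndex_of_qc hk hC ?_
    intro g hg c hc
    have := (Subgroup.mem_centralizer_iff.mp hg) c hc
    have e : g * c * g⁻¹ = c := by rw [← this]; group
    rwa [e]
  -- the normalizer of `D`
  set E := Subgroup.normalizer (D : Set G) with hE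
  have hED : D.relIndex E ≠ 0 := by
    refine M.relIndex_of_qc hl hDinf ?_
    intro g hg d hd
    exact (Subgroup.mem_normalizer_iff.mp hg d).mp hd
  have hDE : D ≤ E := Subgroup.le_normalizer
  -- `K` normalizes `D`
  have hKE : K ≤ E := by
    intro g hg
    have a1 : ∀ n ∈ N, g * n * g⁻¹ ∈ N := hK g hg
    have a2 : ∀ n ∈ N, g⁻¹ * n * g ∈ N := by
      intro n hn
      have := hK g⁻¹ (K.inv_mem hg) n hn
      simpa using this
    have b1 := hconj N g a1 a2
    have b2 : ∀ c ∈ C, g⁻¹ * c * g ∈ C := by
      intro c hc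
      have := hconj N g⁻¹ (by simpa using a2) (by simpa using a1) c hc
      simpa using this
    have c1 := hconj C g b1 b2
    have c2 : ∀ c ∈ D, g⁻¹ * c * g ∈ D := by
      intro c hc
      have := hconj C g⁻¹ (by simpa using b2) (by simpa using b1) c hc
      simpa using this
    rw [hE, Subgroup.mem_normalizer_iff]
    intro h
    refine ⟨fun hh => c1 h hh, fun hh => ?_⟩
    have := c2 _ hh
    have e : g⁻¹ * (g * h * g⁻¹) * g = h := by group
    rwa [e] at this
  -- `E` is finitely generated and virtually abelian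
  have hCDE : ((C ⊓ D).subgroupOf E).FiniteIndex := by
    constructor
    have h1 : (C ⊓ D).relIndex D * D.relIndex E = (C ⊓ D).relIndex E :=
      Subgroup.relIndex_mul_relIndex _ _ _ inf_le_right hDE
    have h2 : (C ⊓ D).relIndex D = C.relIndex D := Subgroup.inf_relIndex_right C D
    have h3 : (C ⊓ D).relIndex E ≠ 0 := by
      rw [← h1, h2]; exact mul_ne_zero hCD hED
    exact h3
  have hDEfin : (D.subgroupOf E).FiniteIndex := ⟨hED⟩
  have hEfg : Group.FG E := by
    have h1 : Group.FG D := (Group.fg_iff_subgroup_fg D).mpr hDfg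
    have h2 : Group.FG (D.subgroupOf E) :=
      Group.fg_of_surjective (f := (Subgroup.subgroupOfEquivOfLe hDE).symm.toMonoidHom)
        (Subgroup.subgroupOfEquivOfLe hDE).symm.surjective
    exact fg_of_finiteIndex_fg (D.subgroupOf E) h2
  have hErf : Group.ResiduallyFinite E := by
    refine residuallyFinite_of_virtually_abelian ((C ⊓ D).subgroupOf E) ?_
    intro a ha b hb
    rw [Subgroup.mem_subgroupOf] at ha hb
    exact Subtype.ext ((Subgroup.mem_centralizer_iff.mp hb.2) a ha.1)
  exact residuallyFinite_of_injective (Subgroup.inclusion hKE) (Subgroup.inclusion_injective hKE)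

end HypMetric

/-- The finite residual of a subgroup `K` of a hyperbolic group is finite as soon as that of some
infinite finitely generated normal subgroup of `K` is. -/
theorem main_subgroup {G : Type*} [Group G] (hG : IsHyperbolicGroup G) (K : Subgroup G)
    (N : Subgroup K) [hNn : N.Normal] (hN : N.FG) (hinf : Infinite N) :
    ((finiteResidual K : Set K).Finite ↔ (finiteResidual N : Set N).Finite) ∧
    (IsVirtuallyTorsionFree K → (Group.ResiduallyFinite K ↔ Group.ResiduallyFinite N)) := by
  obtain ⟨M⟩ := hG.exists_hypMetric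
  have hNfg : Group.FG N := (Group.fg_iff_subgroup_fg N).mpr hN
  have key : (finiteResidual N : Set N).Finite → (finiteResidual K : Set K).Finite := by
    intro hR
    set N' : Subgroup G := N.map K.subtype with hN'
    by_cases hC : (Subgroup.centralizer (N' : Set G) : Set G).Finite
    · refine finite_finiteResidual N hNfg ?_ hR
      refine Set.Finite.of_injOn (f := fun n : K => (n : G)) ?_ (Subtype.val_injective.injOn) hC
      intro c hc
      have hc' := Subgroup.mem_centralizer_iff.mp hc
      show (c : G) ∈ Subgroup.centralizer (N' : Set G)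
      rw [Subgroup.mem_centralizer_iff]
      rintro _ ⟨n, hn, rfl⟩
      exact congrArg Subtype.val (hc' n hn)
    · have hN'fg : N'.FG := fg_map K.subtype hN
      have hN'inf : (N' : Set G).Infinite := by
        rw [hN', Subgroup.coe_map]
        exact (Set.infinite_coe_iff.mp hinf).image (Subtype.val_injective.injOn)
      have := M.residuallyFinite_of_infinite_centralizer N' hN'fg hN'inf hC K (by
        rintro g hg _ ⟨n, hn, rfl⟩
        exact ⟨⟨g, hg⟩ * n * ⟨g, hg⟩⁻¹, hNn.conj_mem n hn ⟨g, hg⟩, rfl⟩)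
      rw [residuallyFinite_iff_finiteResidual] at this
      rw [this]
      exact Set.finite_singleton 1
  refine ⟨⟨?_, key⟩, ?_⟩
  · intro h
    refine Set.Finite.of_injOn (f := fun n : N => (n : K)) ?_ (Subtype.val_injective.injOn) h
    intro n hn
    exact finiteResidual_le N hn
  · intro hV
    refine ⟨fun h => inferInstance, fun h => ?_⟩
    refine residuallyFinite_of_finite hV (key ?_)
    rw [residuallyFinite_iff_finiteResidual] at h
    rw [h]
    exact Set.finite_singleton 1

/-- Main theorem for the whole group. -/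
theorem main {G : Type*} [Group G] (hG : IsHyperbolicGroup G) (N : Subgroup G) [hNn : N.Normal]
    (hN : N.FG) (hinf : Infinite N) :
    (Group.ResiduallyFinite G ↔ (Group.ResiduallyFinite N ∧ IsVirtuallyTorsionFree G)) := by
  obtain ⟨M⟩ := hG.exists_hypMetric
  refine ⟨fun h => ⟨inferInstance, M.virtuallyTorsionFree_of_residuallyFinite⟩, ?_⟩
  rintro ⟨h1, h2⟩
  -- transfer to the top subgroup
  let e : (⊤ : Subgroup G) ≃* G := Subgroup.topEquiv
  have hnorm : (N.subgroupOf ⊤).Normal := inferInstance
  have h3 : Group.ResiduallyFinite (N.subgroupOf ⊤) :=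
    residuallyFinite_of_injective (Subgroup.subgroupOfEquivOfLe (le_top : N ≤ ⊤)).toMonoidHom
      (Subgroup.subgroupOfEquivOfLe (le_top : N ≤ ⊤)).injective
  have h4 : Infinite (N.subgroupOf ⊤) :=
    (Subgroup.subgroupOfEquivOfLe (le_top : N ≤ ⊤)).toEquiv.infinite_iff.mpr hinf
  have h5 : (N.subgroupOf ⊤).FG := by
    rw [← Group.fg_iff_subgroup_fg]
    have h1 : Group.FG N := (Group.fg_iff_subgroup_fg N).mpr hN
    exact Group.fg_of_surjective
      (f := (Subgroup.subgroupOfEquivOfLe (le_top : N ≤ ⊤)).symm.toMonoidHom)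
      (Subgroup.subgroupOfEquivOfLe (le_top : N ≤ ⊤)).symm.surjective
  have h6 : IsVirtuallyTorsionFree (⊤ : Subgroup G) := by
    obtain ⟨H, hH, hHt⟩ := h2
    refine ⟨H.subgroupOf ⊤, inferInstance, ?_⟩
    intro h hh hfo
    apply Subtype.ext
    exact hHt h hh ((Submonoid.isOfFinOrder_coe (H := (⊤ : Subgroup G).toSubmonoid)
      (x := h)).mpr hfo)
  have h7 := ((main_subgroup hG ⊤ (N.subgroupOf ⊤) h5 h4).2 h6).mpr h3
  exact residuallyFinite_of_injective (G := G) (H := (⊤ : Subgroup G)) e.symm.toMonoidHom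
    e.symm.injective

end Vale.Agent.P186
end
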